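import Vale.Agent.P216.H971Z.FibB

/-!
# P216-B7, Z10: existence of the tracks over a slab
-/

set_option linter.all false

open Set BoundedContinuousFunction

namespace Vale.Agent.P216.H971Z

open Vale.Agent.P216.Sl Vale.Agent.P216.PS Vale.Agent.P216.B7 Vale.Agent.P216.E2L
open Vale.Agent.P216.MV337 Vale.Agent.P216.H923E
open Vale.Agent.P216.C337 hiding ex
open Vale.Agent.P216.H456 (PF)

section

variable {M : Type} [MetricSpace M] {h : C(M, Circle)} [CompactSpace M] {ρ : ℝ}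

/-- A Moore path with a lift, as an element of `PZ`. -/
theorem mo_mem_PZ' {p q : M × ℝ} {m : ℝ} {f : ℝ → M} (h1 : Pt m p.1 q.1 f)
    (h2 : Lf h m p.2 q.2 f) : mo f ∈ PZ h p q m := by
  refine ⟨h1.mo, ?_⟩
  obtain ⟨θ, c1, c2, c3, c4⟩ := h2
  exact ⟨θ, c1, fun u => by rw [Lip.mo_apply h1.1]; exact c2 u, c3, c4⟩

theorem exists_trZ (hρ : 0 < ρ) (hU : LS.UniqSeg M ρ) (h2 : G2Goal M h) (h3 : G3Goal M h)
    {p₀ p' : M × ℝ} (h0 : p₀ ∈ Xt h) (hp : p' ∈ Xt h) (R' : ℝ) :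
    ∃ R ℓ₀ ℓ r0 c, TrZ h p₀ p' (Slb h R') ρ R ℓ₀ ℓ r0 c := by
  classical
  obtain ⟨δ, hδ, hd⟩ := H456Z.exists_h1 h
  have hp₀ : p₀ ∈ Slb h (max R' |p₀.2|) := ⟨h0, le_max_right _ _⟩
  have hsl : ∀ x ∈ Slb h R', x ∈ Slb h (max R' |p₀.2|) := fun x hx =>
    ⟨hx.1, hx.2.trans (le_max_left _ _)⟩
  obtain ⟨ℓ₀, hℓ₀, hne⟩ := h2 (max R' |p₀.2|)
  have hne' : ∀ x : M × ℝ, ∃ v : ℝ →ᵇ M, x ∈ Slb h R' → v ∈ PZ h x p₀ ℓ₀ := fun x => by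
    by_cases hx : x ∈ Slb h R'
    · obtain ⟨v, hv⟩ := hne x (hsl x hx) p₀ hp₀
      exact ⟨v, fun _ => hv⟩
    · exact ⟨BoundedContinuousFunction.const ℝ x.1, fun hx' => absurd hx' hx⟩
  choose v hv using hne'
  obtain ⟨ℓ, hℓ, hj⟩ := h3 (max R' |p₀.2|) (ρ / 2 + ℓ₀)
  have hR : 0 < ρ / 2 := by linarith
  have hr0 : 0 < min (ρ / 8) (δ / 2) := lt_min (by linarith) (by linarith)
  have hr1 : min (ρ / 8) (δ / 2) ≤ ρ / 8 := min_le_left _ _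
  have hr2 : min (ρ / 8) (δ / 2) ≤ δ / 2 := min_le_right _ _
  -- the tracks
  obtain ⟨c, hc⟩ : ∃ c : M × ℝ → ℝ → M, c = fun x u => if x = p₀ then p₀.1 else v x u := ⟨_, rfl⟩
  have hc0 : c p₀ = fun _ => p₀.1 := by
    rw [hc]
    funext u
    exact if_pos rfl
  have hc1 : ∀ x, x ≠ p₀ → c x = fun u => v x u := fun x hx => by
    rw [hc]
    funext u
    exact if_neg hx
  have hpt : ∀ x ∈ Slb h R', Pt ℓ₀ x.1 p₀.1 (c x) := by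
    intro x hx
    by_cases e : x = p₀
    · rw [e, hc0]
      exact ⟨fun u w => by rw [dist_self]; exact abs_nonneg _, fun _ _ => rfl, fun _ _ => rfl⟩
    · rw [hc1 x e]
      exact Pt.of_P (hv x hx).1
  have hlf : ∀ x ∈ Slb h R', Lf h ℓ₀ x.2 p₀.2 (c x) := by
    intro x hx
    by_cases e : x = p₀
    · rw [e, hc0]
      exact ⟨fun _ => p₀.2, continuous_const, fun _ => h0, fun _ _ => rfl, fun _ _ => rfl⟩
    · rw [hc1 x e]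
      exact (hv x hx).2
  refine ⟨ρ / 2, ℓ₀, ℓ, min (ρ / 8) (δ / 2), c, ⟨fun x hx => hx.1, h0, hp,
    ⟨hU, hR, by linarith, hr0, by linarith, hℓ₀, hℓ, fun i => hpt i.1 i.2⟩, hlf,
    fun x a hxa => hd x a (by linarith), ?_, fun _ => hc0⟩⟩
  intro x hx y hy hxy hxy2
  have hyx : dist y.1 x.1 ≤ 2 * min (ρ / 8) (δ / 2) := by rwa [dist_comm]
  have s1 : Pt (ρ / 2) y.1 x.1 (sg (ρ / 2) y.1 x.1) := sg_pt hU hR (by linarith) (by linarith)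
  have s2 : Lf h (ρ / 2) y.2 x.2 (sg (ρ / 2) y.1 x.1) := lf_sg hU hR (by linarith) (by linarith)
    (fun z hz => hd _ _ (by linarith)) hy.1.symm hx.1.symm (by linarith)
  have m1 : mo (catf (ρ / 2) (sg (ρ / 2) y.1 x.1) (c x)) ∈ PZ h y p₀ (ρ / 2 + ℓ₀) :=
    mo_mem_PZ' (s1.cat (hpt x hx) hR.le hℓ₀) (lf_catf s1 (hpt x hx) hR.le hℓ₀ s2 (hlf x hx))
  have m2 : mo (c y) ∈ PZ h y p₀ (ρ / 2 + ℓ₀) :=
    PZ_mono (by linarith) (mo_mem_PZ' (hpt y hy) (hlf y hy))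
  exact (hj y (hsl y hy) p₀ hp₀ _ m1 _ m2).mono fun w hw => hw.1

end

end Vale.Agent.P216.H971Z
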